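import Vale.Agent.P226.Bdl.B1

/-!
# P226: the Gaussian propeller conjecture

The upper bound `9/(8π)` for every measurable partition (up to Gaussian null sets) of `ℝ^d` into
`k` cells, for all `d` and `k`, and the fact that `9/(8π)` is the maximum for `d ≥ 2`, `k ≥ 3`.
-/

open MeasureTheory ProbabilityTheory

namespace Vale.Agent.Results.P226.Propeller

/-- The propeller conjecture. -/
theorem result :
    (∀ (d k : ℕ) (A : Fin k → Set (EuclideanSpace ℝ (Fin d))),
      (∀ i, NullMeasurableSet (A i) (stdGaussian (EuclideanSpace ℝ (Fin d)))) →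
      (Pairwise fun i j => AEDisjoint (stdGaussian (EuclideanSpace ℝ (Fin d))) (A i) (A j)) →
      (∀ᵐ x ∂(stdGaussian (EuclideanSpace ℝ (Fin d))), x ∈ ⋃ i, A i) →
      ∑ i, ‖∫ x in A i, x ∂(stdGaussian (EuclideanSpace ℝ (Fin d)))‖ ^ 2 ≤ 9 / (8 * Real.pi)) ∧
    (∀ d k : ℕ, 2 ≤ d → 3 ≤ k →
      IsGreatest {r : ℝ | ∃ A : Fin k → Set (EuclideanSpace ℝ (Fin d)),
        (∀ i, MeasurableSet (A i)) ∧ (Pairwise fun i j => Disjoint (A i) (A j)) ∧
        ⋃ i, A i = Set.univ ∧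
        r = ∑ i, ‖∫ x in A i, x ∂(stdGaussian (EuclideanSpace ℝ (Fin d)))‖ ^ 2}
        (9 / (8 * Real.pi))) :=
  Vale.Agent.P226.final_of_isEmpty_bad fun _ => inferInstance

end Vale.Agent.Results.P226.Propeller
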